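import Vale.Agent.P161.Main
import Vale.Agent.P161.Critical.Converse
import Vale.Agent.P161.Critical.Refined
import Vale.Agent.P161.Critical.Final

/-!
P161: the free Ising state on a regular tree is a factor of IID exactly up to the reconstruction
threshold, endpoint included, for every degree.
-/

open MeasureTheory SimpleGraph Vale.Agent.P161

namespace Vale.Agent.Results.P161.FIIDThreshold

universe u

lemma induce_connected {V : Type u} {G : SimpleGraph V} {D : Finset V} (hD : Conn G D) :
    (G.induce (D : Set V)).Connected := by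
  obtain ⟨⟨o, ho⟩, hc⟩ := hD
  have : Nonempty ((D : Set V) : Type u) := ⟨⟨o, ho⟩⟩
  refine ⟨fun a b => ?_⟩
  obtain ⟨p, hp⟩ := hc a a.2 b b.2
  exact ⟨p.induce (D : Set V) hp⟩

/-- For every `d ≥ 3`, every `d`-regular tree and every `β ≥ 0`, the free Ising state exists, is
unique, and is a factor of IID if and only if `(d-1) (tanh β)² ≤ 1`. -/
theorem result (d : ℕ) (hd : 3 ≤ d) (V : Type u) (G : SimpleGraph V) (hG : G.IsTree)
    (hdeg : ∀ v, (G.neighborSet v).ncard = d) (β : ℝ) (hβ : 0 ≤ β) :
    ∃ ν : Measure (V → Bool), IsProbabilityMeasure ν ∧ IsFreeIsing G (Real.tanh β) ν ∧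
      (∀ ν' : Measure (V → Bool), IsProbabilityMeasure ν' → IsFreeIsing G (Real.tanh β) ν' →
        ν' = ν) ∧
      (IsFactorOfIID G ν ↔ ((d : ℝ) - 1) * Real.tanh β ^ 2 ≤ 1) := by
  classical
  have h : Reg G d := ⟨hG, hdeg, by omega⟩
  have := h.countable
  set θ := Real.tanh β
  have hθ : 0 ≤ θ := by
    simp only [θ, Real.tanh_eq_sinh_div_cosh]
    exact div_nonneg (Real.sinh_nonneg_iff.2 hβ) (Real.cosh_pos β).le
  have hθ1 : θ < 1 := by
    simp only [θ, Real.tanh_eq_sinh_div_cosh]
    rw [div_lt_one (Real.cosh_pos β)]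
    exact Real.sinh_lt_cosh β
  have hθa : |θ| < 1 := by rwa [abs_of_nonneg hθ]
  obtain ⟨ν, hν1, hν⟩ := exists_hasMarginals (θ := θ) h hθa
  refine ⟨ν, hν1, fun D hD η => ?_, fun ν' hν'1 hν' => ?_, fun hF => ?_, fun hle => ?_⟩
  · refine (hν D (conn_of_induce hD) η).trans ?_
    unfold w edgesIn
    congr!
  · refine HasMarginals.unique (θ := θ) h (fun D hD η => ?_) hν
    refine (hν' D (induce_connected hD) η).trans ?_
    unfold w edgesIn
    congr!
  · exact bn_mul_sq_le_one_of_factor h hd hν hθ hθ1 hF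
  · rcases lt_or_eq_of_le hle with hlt | heq
    · exact factor_of_hasMarginals h hν hθ hlt
    · exact factor_of_refined h hd hν hθa heq fun p hp => refined_bound h hd hν hθa heq p hp

end Vale.Agent.Results.P161.FIIDThreshold
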